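import Vale.Agent.Lib.P171.Draw3

/-!
# P171: a stable tempered radial pair potential with a phase transition, in coordinates

No own definitions: `U N x` is the energy of the particles `x 0, .., x (N-1)` in three-space,
`Ξ z L` the grand canonical partition function of `[0, L]^3` (its series and integrals are taken in
`[0, ∞]`), and `P z` the limit of `L⁻³ log Ξ z L`.
-/

open MeasureTheory Filter Topology

namespace Vale.Agent.Results.P171.CoordinateForm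

/-- **Answer to Q1.** There is a Borel measurable, locally bounded, stable and tempered radial pair
potential whose pressure is not differentiable in the activity. -/
theorem result :
    ∃ (φ : ℝ → ℝ) (U : ∀ N : ℕ, (Fin N → Fin 3 → ℝ) → ℝ),
      (∀ N x, U N x = ∑ j : Fin N, ∑ i ∈ Finset.Iio j, φ √(∑ k, (x i k - x j k) ^ 2)) ∧
      Measurable φ ∧
      (∀ a b : ℝ, 0 < a → ∃ M : ℝ, ∀ r : ℝ, a ≤ r → r ≤ b → |φ r| ≤ M) ∧
      (∃ B : ℝ, ∀ (N : ℕ) (x : Fin N → Fin 3 → ℝ), (∀ i j, i ≠ j → x i ≠ x j) →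
        -B * N ≤ U N x) ∧
      (∃ C ε R : ℝ, 0 < C ∧ 0 < ε ∧ 0 < R ∧ ∀ r : ℝ, R ≤ r → φ r ≤ C * r ^ (-3 - ε)) ∧
      ∃ β : ℝ, 0 < β ∧ ∃ (Ξ : ℝ → ℝ → ℝ) (P : ℝ → ℝ),
        (∀ z L : ℝ, 0 < z → 0 < L → 0 < Ξ z L ∧ ENNReal.ofReal (Ξ z L) =
          ∑' N : ℕ, ENNReal.ofReal (z ^ N / N.factorial) *
            ∫⁻ x in {x : Fin N → Fin 3 → ℝ | ∀ i k, 0 ≤ x i k ∧ x i k ≤ L},
              ENNReal.ofReal (Real.exp (-β * U N x))) ∧
        (∀ z : ℝ, 0 < z → Tendsto (fun L : ℝ => Real.log (Ξ z L) / L ^ 3) atTop (𝓝 (P z))) ∧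
        ∃ z₀ : ℝ, 0 < z₀ ∧ ¬ DifferentiableAt ℝ P z₀ :=
  Vale.Agent.P171.coords

end Vale.Agent.Results.P171.CoordinateForm
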