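import Vale.Agent.Lib.P171.Defs
import Vale.Agent.Lib.P171.Final

/-!
# P171, second formulation: the pressure of a stable tempered pair potential has a corner

The grand canonical partition function is written with the Lebesgue integral with values in
`[0, ∞]` (no convention about divergent integrals or series is involved), and at the transition
point the left and right derivatives of the pressure in the activity exist and are different.
-/

open MeasureTheory Filter Topology
open scoped ENNReal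

namespace Vale.Agent.Results.P171.DensityJump

/-- The energy of `N` particles: the sum of `φ |x_i - x_j|` over the pairs `i < j`. -/
noncomputable def pairEnergy (φ : ℝ → ℝ) {N : ℕ} (x : Fin N → EuclideanSpace ℝ (Fin 3)) : ℝ :=
  ∑ p : Fin N × Fin N with p.1 < p.2, φ ‖x p.1 - x p.2‖

/-- The box `[0, L]^3`. -/
def box (L : ℝ) : Set (EuclideanSpace ℝ (Fin 3)) := {y | ∀ k, y k ∈ Set.Icc 0 L}

/-- The grand canonical partition function
`∑_N z^N / N! ∫_{([0,L]^3)^N} exp (-β U_N)`, an element of `[0, ∞]`. -/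
noncomputable def grandPartition (φ : ℝ → ℝ) (β z L : ℝ) : ℝ≥0∞ :=
  ∑' N : ℕ, ENNReal.ofReal z ^ N * (N.factorial : ℝ≥0∞)⁻¹ *
    ∫⁻ x in Set.univ.pi (fun _ : Fin N => box L), ENNReal.ofReal (Real.exp (-β * pairEnergy φ x))

open Vale.Agent.P171

private lemma energy_eq (φ : ℝ → ℝ) {N : ℕ} (x : Fin N → EuclideanSpace ℝ (Fin 3)) :
    pairEnergy φ x = energy φ x := by
  unfold pairEnergy energy
  rw [Finset.sum_filter, ← Finset.univ_product_univ, Finset.sum_product]
  refine Finset.sum_congr rfl fun i _ => Finset.sum_congr rfl fun j _ => ?_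
  simp only [dist_eq_norm]

private lemma set_eq (L : ℝ) (N : ℕ) :
    Set.univ.pi (fun _ : Fin N => box L) = {x : Fin N → Space | ∀ i, x i ∈ cube L} := by
  ext x
  simp [box, cube]

private lemma canonicalZ_nonneg (φ : ℝ → ℝ) (β L : ℝ) (N : ℕ) : 0 ≤ canonicalZ φ β L N :=
  mul_nonneg (by positivity) (integral_nonneg fun _ => (Real.exp_pos _).le)

private lemma grand_eq {φ : ℝ → ℝ} {β z L : ℝ} (hz : 0 < z) (h : GrandConverges φ β z L) :
    grandPartition φ β z L = ENNReal.ofReal (grandZ φ β z L) := by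
  unfold grandPartition grandZ
  rw [ENNReal.ofReal_tsum_of_nonneg (fun N => mul_nonneg (pow_nonneg hz.le N)
    (canonicalZ_nonneg φ β L N)) h.2]
  refine tsum_congr fun N => ?_
  rw [set_eq]
  simp only [energy_eq]
  rw [← ofReal_integral_eq_lintegral_ofReal (h.1 N) (ae_of_all _ fun _ => (Real.exp_pos _).le)]
  unfold canonicalZ
  rw [ENNReal.ofReal_mul (pow_nonneg hz.le N), ENNReal.ofReal_mul (by positivity),
    ENNReal.ofReal_pow hz.le, one_div, ENNReal.ofReal_inv_of_pos (by positivity),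
    ENNReal.ofReal_natCast, mul_assoc]

private lemma grandZ_pos {φ : ℝ → ℝ} {β z L : ℝ} (hz : 0 < z) (h : GrandConverges φ β z L) :
    0 < grandZ φ β z L := by
  have h0 : (0 : ℝ) < z ^ 0 * canonicalZ φ β L 0 := by
    have h1 : canonicalZ φ β L 0 = 1 := by
      unfold canonicalZ
      have h2 : {x : Fin 0 → Space | ∀ i, x i ∈ cube L} = Set.univ := by
        ext x
        simp
      rw [h2, Measure.restrict_univ]
      have h3 : (volume : Measure (Fin 0 → Space)) Set.univ = 1 := by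
        rw [volume_pi, Measure.pi_of_empty]
        simp
      simp [energy, Measure.real, h3]
    rw [h1]
    norm_num
  unfold grandZ
  exact h.2.tsum_pos (fun N => mul_nonneg (pow_nonneg hz.le N) (canonicalZ_nonneg φ β L N)) 0 h0

/-- logarithmic convexity of the partition function in the chemical potential -/
private lemma grandZ_holder {φ : ℝ → ℝ} {β L μ ν a b : ℝ} (ha : 0 ≤ a) (hb : 0 ≤ b)
    (hab : a + b = 1) (h1 : GrandConverges φ β (Real.exp μ) L)
    (h2 : GrandConverges φ β (Real.exp ν) L)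
    (h3 : GrandConverges φ β (Real.exp (a * μ + b * ν)) L) :
    Real.log (grandZ φ β (Real.exp (a * μ + b * ν)) L) ≤
      a * Real.log (grandZ φ β (Real.exp μ) L) + b * Real.log (grandZ φ β (Real.exp ν) L) := by
  rcases ha.eq_or_lt with h0 | ha'
  · have hb1 : b = 1 := by linarith
    rw [← h0, hb1]
    simp
  rcases hb.eq_or_lt with h0 | hb'
  · have ha1 : a = 1 := by linarith
    rw [← h0, ha1]
    simp
  have p1 := grandZ_pos (Real.exp_pos μ) h1
  have p2 := grandZ_pos (Real.exp_pos ν) h2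
  have p3 := grandZ_pos (Real.exp_pos (a * μ + b * ν)) h3
  have hpq : (1 / a).HolderConjugate (1 / b) := by
    rw [Real.holderConjugate_iff]
    refine ⟨?_, ?_⟩
    · rw [lt_div_iff₀ ha']
      linarith
    · rw [one_div, one_div, inv_inv, inv_inv]
      exact hab
  have t1 : ∀ N : ℕ, 0 ≤ Real.exp μ ^ N * canonicalZ φ β L N := fun N =>
    mul_nonneg (pow_nonneg (Real.exp_pos _).le N) (canonicalZ_nonneg φ β L N)
  have t2 : ∀ N : ℕ, 0 ≤ Real.exp ν ^ N * canonicalZ φ β L N := fun N =>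
    mul_nonneg (pow_nonneg (Real.exp_pos _).le N) (canonicalZ_nonneg φ β L N)
  have e1 : ∀ N : ℕ, ((Real.exp μ ^ N * canonicalZ φ β L N) ^ a) ^ (1 / a) =
      Real.exp μ ^ N * canonicalZ φ β L N := fun N => by
    rw [← Real.rpow_mul (t1 N), mul_one_div_cancel ha'.ne', Real.rpow_one]
  have e2 : ∀ N : ℕ, ((Real.exp ν ^ N * canonicalZ φ β L N) ^ b) ^ (1 / b) =
      Real.exp ν ^ N * canonicalZ φ β L N := fun N => by
    rw [← Real.rpow_mul (t2 N), mul_one_div_cancel hb'.ne', Real.rpow_one]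
  have key := (Real.inner_le_Lp_mul_Lq_tsum_of_nonneg hpq
    (f := fun N : ℕ => (Real.exp μ ^ N * canonicalZ φ β L N) ^ a)
    (g := fun N : ℕ => (Real.exp ν ^ N * canonicalZ φ β L N) ^ b)
    (fun N => Real.rpow_nonneg (t1 N) a) (fun N => Real.rpow_nonneg (t2 N) b)
    (by simp only [e1]; exact h1.2) (by simp only [e2]; exact h2.2))
  simp only [e1, e2] at key
  rw [one_div_one_div, one_div_one_div] at key
  have e3 : ∀ N : ℕ, (Real.exp μ ^ N * canonicalZ φ β L N) ^ a *
      (Real.exp ν ^ N * canonicalZ φ β L N) ^ b =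
        Real.exp (a * μ + b * ν) ^ N * canonicalZ φ β L N := by
    intro N
    have hZ := canonicalZ_nonneg φ β L N
    rw [Real.mul_rpow (pow_nonneg (Real.exp_pos _).le N) hZ,
      Real.mul_rpow (pow_nonneg (Real.exp_pos _).le N) hZ, ← Real.exp_nat_mul, ← Real.exp_nat_mul,
      ← Real.exp_nat_mul, ← Real.exp_mul, ← Real.exp_mul]
    have e4 : canonicalZ φ β L N ^ a * canonicalZ φ β L N ^ b = canonicalZ φ β L N := by
      rw [← Real.rpow_add_of_nonneg hZ ha hb, hab, Real.rpow_one]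
    calc Real.exp (↑N * μ * a) * canonicalZ φ β L N ^ a *
          (Real.exp (↑N * ν * b) * canonicalZ φ β L N ^ b)
        = (Real.exp (↑N * μ * a) * Real.exp (↑N * ν * b)) *
          (canonicalZ φ β L N ^ a * canonicalZ φ β L N ^ b) := by ring
      _ = Real.exp (↑N * (a * μ + b * ν)) * canonicalZ φ β L N := by
          rw [e4, ← Real.exp_add]
          congr 2
          ring
  simp only [e3] at key
  have key' : grandZ φ β (Real.exp (a * μ + b * ν)) L ≤
      grandZ φ β (Real.exp μ) L ^ a * grandZ φ β (Real.exp ν) L ^ b := key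
  have l1 := Real.log_le_log p3 key'
  rw [Real.log_mul (Real.rpow_pos_of_pos p1 a).ne' (Real.rpow_pos_of_pos p2 b).ne'] at l1
  have l2 : Real.log (grandZ φ β (Real.exp μ) L ^ a) = a * Real.log (grandZ φ β (Real.exp μ) L) :=
    Real.log_rpow p1 a
  have l3 : Real.log (grandZ φ β (Real.exp ν) L ^ b) = b * Real.log (grandZ φ β (Real.exp ν) L) :=
    Real.log_rpow p2 b
  rw [← l2, ← l3]
  exact l1

/-- the pressure is a convex function of the chemical potential -/
private lemma convex_pressure {φ : ℝ → ℝ} {β : ℝ} {p : ℝ → ℝ} (h : IsPressure φ β p) :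
    ConvexOn ℝ Set.univ (fun μ => p (Real.exp μ)) := by
  refine ⟨convex_univ, fun μ _ ν _ a b ha hb hab => ?_⟩
  have h1 := h (Real.exp μ) (Real.exp_pos _)
  have h2 := h (Real.exp ν) (Real.exp_pos _)
  have h3 := h (Real.exp (a * μ + b * ν)) (Real.exp_pos _)
  simp only [smul_eq_mul]
  refine le_of_tendsto_of_tendsto h3.2 ((h1.2.const_mul a).add (h2.2.const_mul b)) ?_
  filter_upwards [eventually_gt_atTop (0 : ℝ)] with L hL
  have h4 := grandZ_holder ha hb hab (h1.1 L hL) (h2.1 L hL) (h3.1 L hL)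
  have h5 := div_le_div_of_nonneg_right h4 (by positivity : 0 ≤ L ^ 3)
  refine h5.trans (le_of_eq ?_)
  ring

/-- **Answer to Q1.** There is a Borel measurable potential `φ`, bounded on the compact subsets of
`(0, ∞)`, stable and tempered, whose pressure `P` has a corner: the left derivative at some
activity `z₀ > 0` is strictly smaller than the right derivative. -/
theorem result :
    ∃ φ : ℝ → ℝ, Measurable φ ∧
      (∀ K : Set ℝ, IsCompact K → K ⊆ Set.Ioi 0 → ∃ M : ℝ, ∀ r ∈ K, |φ r| ≤ M) ∧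
      (∃ B : ℝ, ∀ (N : ℕ) (x : Fin N → EuclideanSpace ℝ (Fin 3)), Function.Injective x →
        -(B * N) ≤ pairEnergy φ x) ∧
      (∃ C ε R : ℝ, 0 < C ∧ 0 < ε ∧ 0 < R ∧ ∀ r : ℝ, R ≤ r → φ r ≤ C * r ^ (-(3 + ε))) ∧
      ∃ β : ℝ, 0 < β ∧ ∃ P : ℝ → ℝ,
        (∀ z : ℝ, 0 < z → (∀ L : ℝ, 0 < L → grandPartition φ β z L < ∞) ∧
          Tendsto (fun L : ℝ => (L ^ 3)⁻¹ * Real.log (grandPartition φ β z L).toReal) atTop
            (𝓝 (P z))) ∧
        ∃ z₀ a b : ℝ, 0 < z₀ ∧ a < b ∧ HasDerivWithinAt P a (Set.Iic z₀) z₀ ∧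
          HasDerivWithinAt P b (Set.Ici z₀) z₀ := by
  obtain ⟨φ, hm, hlb, ⟨B, hB⟩, ⟨C, ε, R, hC, hε, hR, hT⟩, β, hβ, p, hp, z₀, hz₀, hnd⟩ :=
    Vale.Agent.P171.main
  refine ⟨φ, hm, fun K hK hK0 => ?_, ⟨B, fun N x hx => ?_⟩, ⟨C, ε, R, hC, hε, hR, fun r hr => ?_⟩,
    β, hβ, p, fun z hz => ⟨fun L hL => ?_, ?_⟩, ?_⟩
  · rcases K.eq_empty_or_nonempty with h0 | h0
    · exact ⟨0, by simp [h0]⟩
    · obtain ⟨a, ha, ha'⟩ := hK.exists_isLeast h0
      obtain ⟨b, hb, hb'⟩ := hK.exists_isGreatest h0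
      obtain ⟨M, hM⟩ := hlb a b (hK0 ha)
      exact ⟨M, fun r hr => hM r (ha' hr) (hb' hr)⟩
  · rw [energy_eq, ← neg_mul]
    exact hB N x hx
  · have h1 : -(3 + ε) = -3 - ε := by ring
    rw [h1]
    exact hT r hr
  · rw [grand_eq hz ((hp z hz).1 L hL)]
    exact ENNReal.ofReal_lt_top
  · refine (hp z hz).2.congr' ?_
    filter_upwards [eventually_gt_atTop (0 : ℝ)] with L hL
    have h1 := (hp z hz).1 L hL
    rw [grand_eq hz h1, ENNReal.toReal_ofReal (grandZ_pos hz h1).le, div_eq_inv_mul]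
  · -- one-sided derivatives
    have hcx := convex_pressure hp
    set ψ : ℝ → ℝ := fun μ => p (Real.exp μ) with hψ
    set μ₀ : ℝ := Real.log z₀ with hμ₀
    have hint : μ₀ ∈ interior (Set.univ : Set ℝ) := by simp
    have hr := hcx.hasDerivWithinAt_rightDeriv_of_mem_interior hint
    have hl := hcx.hasDerivWithinAt_leftDeriv_of_mem_interior hint
    have hlr := hcx.leftDeriv_le_rightDeriv_of_mem_interior hint
    have hlog : HasDerivAt Real.log z₀⁻¹ z₀ := Real.hasDerivAt_log hz₀.ne'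
    have hpe : ∀ z : ℝ, 0 < z → p z = ψ (Real.log z) := fun z hz => by
      simp only [hψ, Real.exp_log hz]
    have hL : HasDerivWithinAt p (derivWithin ψ (Set.Iio μ₀) μ₀ * z₀⁻¹) (Set.Iic z₀) z₀ := by
      rw [← hasDerivWithinAt_Iio_iff_Iic]
      have h1 : HasDerivWithinAt (ψ ∘ Real.log) (derivWithin ψ (Set.Iio μ₀) μ₀ * z₀⁻¹)
          (Set.Ioo 0 z₀) z₀ :=
        HasDerivWithinAt.comp z₀ hl hlog.hasDerivWithinAt
          (fun z hz => Real.log_lt_log hz.1 hz.2)
      have h2 : HasDerivWithinAt p (derivWithin ψ (Set.Iio μ₀) μ₀ * z₀⁻¹) (Set.Ioo 0 z₀) z₀ :=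
        h1.congr (fun z hz => hpe z hz.1) (hpe z₀ hz₀)
      exact h2.mono_of_mem_nhdsWithin (Ioo_mem_nhdsLT hz₀)
    have hRt : HasDerivWithinAt p (derivWithin ψ (Set.Ioi μ₀) μ₀ * z₀⁻¹) (Set.Ici z₀) z₀ := by
      rw [← hasDerivWithinAt_Ioi_iff_Ici]
      have h1 : HasDerivWithinAt (ψ ∘ Real.log) (derivWithin ψ (Set.Ioi μ₀) μ₀ * z₀⁻¹)
          (Set.Ioi z₀) z₀ :=
        HasDerivWithinAt.comp z₀ hr hlog.hasDerivWithinAt
          (fun z hz => Real.log_lt_log hz₀ hz)
      exact h1.congr (fun z hz => hpe z (hz₀.trans hz)) (hpe z₀ hz₀)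
    refine ⟨z₀, _, _, hz₀, ?_, hL, hRt⟩
    refine lt_of_le_of_ne (mul_le_mul_of_nonneg_right hlr (inv_pos.2 hz₀).le) fun he => hnd ?_
    rw [he] at hL
    have h3 := hL.union hRt
    rw [Set.Iic_union_Ici, hasDerivWithinAt_univ] at h3
    exact h3.differentiableAt

end Vale.Agent.Results.P171.DensityJump
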