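import Vale.Agent.Lib.P171.Defs
import Vale.Agent.Lib.P171.Final

/-!
# P171: a radial pair potential in three dimensions with a phase transition

There is a stable, tempered, Borel measurable and locally bounded radial pair potential on
three-space whose pressure is not differentiable in the activity.
-/

namespace Vale.Agent.Results.P171.PhaseTransition

open Vale.Agent.P171

/-- **Answer to Q1.** There is a stable and tempered radial pair potential `φ` (Borel measurable and
locally bounded on `(0,∞)`, real valued, no hard core) which has a phase transition: for some
`β > 0` the thermodynamic limit `Π(β,z)` exists for all `z > 0` and `z ↦ Π(β,z)` is not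
differentiable at some `z₀ > 0`. -/
theorem result :
    ∃ φ : ℝ → ℝ, Measurable φ ∧ LocallyBounded φ ∧ Stable φ ∧ Tempered φ ∧
      HasPhaseTransition φ :=
  Vale.Agent.P171.main

end Vale.Agent.Results.P171.PhaseTransition
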